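import Vale.Agent.P103.Statement

/-!
# P103: the manifolds `S¹ × S² × Sⁿ`
-/

set_option autoImplicit false

namespace Vale.Agent.P103.H865

open Metric Filter Topology
open scoped Manifold ContDiff

/-- The self-map `f` of the manifold `M` is of class `C^k` at the point `y`. -/
def CkAt {E H M : Type} [NormedAddCommGroup E] [NormedSpace ℝ E] [TopologicalSpace H]
    (I : ModelWithCorners ℝ E H) [TopologicalSpace M] [ChartedSpace H M] (k : WithTop ℕ∞)
    (f : M → M) (y : M) : Prop :=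
  ContMDiffAt I I k f y

/-- The continuous self-map `f` has zero topological entropy and `2` is an eigenvalue of `f_*` on
`H_2(M;ℝ)`. -/
def Violates {M : Type} [MetricSpace M] (f : M → M) : Prop :=
  IsTopEntropy f 0 ∧ ∃ hf : Continuous f,
    Module.End.HasEigenvalue (homologyMap 2 ⟨f, hf⟩) (2 : ℝ) ∧ 2 ≤ rho ⟨f, hf⟩

variable {V W : Type} [NormedAddCommGroup V] [NormedAddCommGroup W]

/-- The unit sphere of `V`. -/
abbrev Sp (V : Type) [NormedAddCommGroup V] : Type := sphere (0 : V) 1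

/-- The product `S¹ × S(V) × S(W)`, with the maximum metric. -/
abbrev Mfd (V W : Type) [NormedAddCommGroup V] [NormedAddCommGroup W] : Type :=
  Circle × (Sp V × Sp W)

/-- `S¹ × S(V) × S(W)` is compact and connected. -/
def CompactConnected (V W : Type) [NormedAddCommGroup V] [NormedAddCommGroup W] : Prop :=
  CompactSpace (Mfd V W) ∧ ConnectedSpace (Mfd V W)

/-- `f` is of class `C^k` at the point `y` of `S¹ × S² × Sⁿ`, where `S²`, `Sⁿ` are the unit spheres
of the Euclidean spaces `V`, `W` of dimensions `3`, `n + 1`. -/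
def SmoothAt [InnerProductSpace ℝ V] [InnerProductSpace ℝ W] (n : ℕ)
    [Fact (Module.finrank ℝ V = 2 + 1)] [Fact (Module.finrank ℝ W = n + 1)]
    (k : WithTop ℕ∞) (f : Mfd V W → Mfd V W) (y : Mfd V W) : Prop :=
  CkAt ((𝓡 1).prod ((𝓡 2).prod (𝓡 n))) k f y

/-- The sphere `{1} × {s} × S(W)`. -/
def Zs (s : Sp V) : Set (Mfd V W) := {y | y.1 = 1 ∧ y.2.1 = s}

/-- `D(x) = d(f(1,x,w), f(1,s,w))`. -/
noncomputable def disp (f : Mfd V W → Mfd V W) (s : Sp V) (w : Sp W) (x : Sp V) : ℝ :=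
  dist (f (1, (x, w))) (f (1, (s, w)))

/-- `D(x)/d(x,s)^e → 0` as `x → s`, `x ≠ s`. -/
def IsSmall (f : Mfd V W → Mfd V W) (s : Sp V) (w : Sp W) (e : ℝ) : Prop :=
  Tendsto (fun x => disp f s w x / dist x s ^ e) (𝓝[≠] s) (𝓝 0)

/-- `D(x)/d(x,s)^e → ∞` as `x → s`, `x ≠ s`. -/
def IsLarge (f : Mfd V W → Mfd V W) (s : Sp V) (w : Sp W) (e : ℝ) : Prop :=
  Tendsto (fun x => disp f s w x / dist x s ^ e) (𝓝[≠] s) atTop

end Vale.Agent.P103.H865
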