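import Vale.Agent.P103.Bdl.B2

/-!
# P103: the global map is `C^∞` off one smooth sphere of codimension three
-/

set_option autoImplicit false

namespace Vale.Agent.P103

open Filter Topology
open scoped Manifold ContDiff

namespace H865

section Sph

variable {V : Type} [NormedAddCommGroup V] [InnerProductSpace ℝ V]

theorem eq_sou_of_st {x : Sph V} (h : x ≠ nor) (h0 : st x = 0) : x = sou := by
  have h1 := ht_lt_one h
  have h2 : hp x = 0 := by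
    have h3 : (1 - ht x)⁻¹ ≠ 0 := inv_ne_zero (by linarith only [h1])
    exact (smul_eq_zero.1 h0).resolve_left h3
  have h4 := hp_ht x
  rw [h2, norm_zero] at h4
  have h5 : (ht x - 1) * (ht x + 1) = 0 := by linarith only [h4]
  have h6 : ht x = -1 := by
    rcases mul_eq_zero.1 h5 with h7 | h7
    · exfalso; linarith only [h7, h1]
    · linarith only [h7]
  apply Sph_ext
  · rw [h2]; simp [sou]
  · rw [h6]; simp [sou]

variable {n : ℕ} [Fact (Module.finrank ℝ (WithLp 2 (V × ℝ)) = n + 1)]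

theorem contMDiffAt_st' {x : Sph V} (h : x ≠ nor) :
    ContMDiffAt (𝓡 n) 𝓘(ℝ, V) ∞ st x := by
  have h1 := ht_lt_one h
  have h2 : ContDiffAt ℝ ∞ (fun y : WithLp 2 (V × ℝ) => (1 - y.snd)⁻¹ • y.fst) x.1 := by
    refine ContDiffAt.smul (ContDiffAt.inv ?_ ?_) contDiff_hpAmb.contDiffAt
    · exact contDiffAt_const.sub contDiff_htAmb.contDiffAt
    · change 1 - ht x ≠ 0
      linarith
  exact h2.contMDiffAt.comp x (contMDiff_coe_sphere.contMDiffAt)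

end Sph

theorem contMDiffAt_lift' (ζ₀ : Circle) :
    ContMDiffAt (𝓡 1) 𝓘(ℝ, ℝ) ∞ (lift ζ₀) ζ₀ := by
  have h1 : ContMDiffAt (𝓡 1) (𝓡 1) ∞ (fun ζ : Circle => ζ * ζ₀⁻¹) ζ₀ :=
    (contMDiff_mul_right (I := 𝓡 1) (n := ∞) (a := ζ₀⁻¹)).contMDiffAt
  have := finrank_real_complex_fact'
  have h2 : ContMDiffAt (𝓡 1) 𝓘(ℝ, ℂ) ∞ (fun ζ : Circle => (ζ : ℂ)) (ζ₀ * ζ₀⁻¹) :=
    (contMDiff_coe_sphere (E := ℂ) (n := 1) (m := ∞)).contMDiffAt
  have h3 : ContDiffAt ℝ ∞ (fun z : ℂ => (Complex.log z).im) ((ζ₀ * ζ₀⁻¹ : Circle) : ℂ) := by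
    have : ContDiffAt ℝ ∞ Complex.log ((ζ₀ * ζ₀⁻¹ : Circle) : ℂ) := by
      refine (Complex.contDiffAt_log ?_).restrict_scalars ℝ
      rw [mul_inv_cancel]
      simp
    exact Complex.imCLM.contDiff.contDiffAt.comp _ this
  have h4 := h3.contMDiffAt.comp (ζ₀ * ζ₀⁻¹) h2
  have h5 : ContMDiffAt (𝓡 1) 𝓘(ℝ, ℝ) ∞ (fun ζ : Circle => Complex.arg ((ζ * ζ₀⁻¹ : Circle) : ℂ))
      ζ₀ := by
    refine (h4.comp ζ₀ h1).congr_of_eventuallyEq (Eventually.of_forall fun ζ => ?_)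
    exact (Complex.log_im _).symm
  exact contMDiffAt_const.add h5

variable (P : Par)

/-- the map `G` is smooth at the points with `ζ ≠ 1` or `x ≠ sou` -/
theorem contMDiffAt_G'
    (hF : ∀ (θ : ℝ) (z : ℂ) (v : P.V), (Circle.exp θ ≠ 1 ∨ z ≠ 0) →
      ContDiffAt ℝ ∞ (fun q : ℝ × ℂ × P.V => P.F (Circle.exp q.1) q.2.1 q.2.2) (θ, z, v))
    (hW : ∀ (θ : ℝ) (z : ℂ), (Circle.exp θ ≠ 1 ∨ z ≠ 0) →
      ContDiffAt ℝ ∞ (fun q : ℝ × ℂ => P.W (Circle.exp q.1) q.2) (θ, z))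
    (y : Circle × (Sph ℂ × Sph P.V)) (hx : y.2.1 ≠ nor) (hy : y.1 ≠ 1 ∨ y.2.1 ≠ sou) :
    ContMDiffAt ((𝓡 1).prod ((𝓡 2).prod (𝓡 (2 * P.p)))) 𝓘(ℝ, P.V) ∞
      (fun y : Circle × (Sph ℂ × Sph P.V) => P.G y.1 y.2.1 y.2.2) y := by
  classical
  have hz : Circle.exp (lift y.1 y.1) ≠ 1 ∨ st y.2.1 ≠ 0 := by
    rw [exp_lift]
    exact hy.imp_right fun h h0 => h (eq_sou_of_st hx h0)
  have hc1 : ContMDiffAt ((𝓡 1).prod ((𝓡 2).prod (𝓡 (2 * P.p)))) 𝓘(ℝ, ℝ) ∞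
      (fun y' : Circle × (Sph ℂ × Sph P.V) => lift y.1 y'.1) y :=
    (contMDiffAt_lift' y.1).comp y contMDiffAt_fst
  have hc2 : ContMDiffAt ((𝓡 1).prod ((𝓡 2).prod (𝓡 (2 * P.p)))) 𝓘(ℝ, ℂ) ∞
      (fun y' : Circle × (Sph ℂ × Sph P.V) => st y'.2.1) y :=
    (contMDiffAt_st' hx).comp y (contMDiffAt_fst.comp y contMDiffAt_snd)
  by_cases hw : y.2.2 = nor
  · have h1 : ContMDiffAt ((𝓡 1).prod ((𝓡 2).prod (𝓡 (2 * P.p)))) 𝓘(ℝ, P.V) ∞
        ((fun q : ℝ × ℂ => P.W (Circle.exp q.1) q.2) ∘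
          (fun y' : Circle × (Sph ℂ × Sph P.V) => (lift y.1 y'.1, st y'.2.1))) y :=
      (hW _ _ hz).contMDiffAt.comp y (hc1.prodMk_space hc2)
    refine h1.congr_of_eventuallyEq ?_
    have h2 : ∀ᶠ y' : Circle × (Sph ℂ × Sph P.V) in 𝓝 y, 0 < ht y'.2.2 := by
      refine (continuous_ht_bd270.comp (continuous_snd.comp continuous_snd)).continuousAt.eventually
        (lt_mem_nhds (a := (0 : ℝ)) ?_)
      change 0 < ht y.2.2
      rw [hw]
      simp only [nor, ht_mk, zero_lt_one]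
    filter_upwards [h2] with y' hy'
    simp only [Function.comp_apply, exp_lift]
    rw [Par.G]
    split_ifs with h3
    · rfl
    · have h4 := norm_st_sq h3
      have h5 := ht_lt_one h3
      have h6 : 1 ≤ ‖st y'.2.2‖ ^ 2 := by
        rw [h4, le_div_iff₀ (by linarith only [h5])]
        linarith only [hy']
      refine P.F_eq_W _ _ _ ?_ ?_
      · have h7 := P.A_le y'.1
        have h8 : 0 ≤ P.A y'.1 := expNegInvGlue.nonneg _
        nlinarith only [h6, h7, h8]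
      · have := sq_nonneg ‖st y'.2.1‖
        linarith only [h6, this]
  · have hc3 : ContMDiffAt ((𝓡 1).prod ((𝓡 2).prod (𝓡 (2 * P.p)))) 𝓘(ℝ, P.V) ∞
        (fun y' : Circle × (Sph ℂ × Sph P.V) => st y'.2.2) y := by
      have hs : ContMDiffAt ((𝓡 1).prod ((𝓡 2).prod (𝓡 (2 * P.p)))) (𝓡 (2 * P.p)) ∞
          (fun y' : Circle × (Sph ℂ × Sph P.V) => y'.2.2) y :=
        contMDiffAt_snd.comp y contMDiffAt_snd
      exact ContMDiffAt.comp (g := st) y (contMDiffAt_st' hw) hs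
    have h1 : ContMDiffAt ((𝓡 1).prod ((𝓡 2).prod (𝓡 (2 * P.p)))) 𝓘(ℝ, P.V) ∞
        ((fun q : ℝ × ℂ × P.V => P.F (Circle.exp q.1) q.2.1 q.2.2) ∘
          (fun y' : Circle × (Sph ℂ × Sph P.V) => (lift y.1 y'.1, st y'.2.1, st y'.2.2))) y :=
      (hF _ _ _ hz).contMDiffAt.comp y (hc1.prodMk_space (hc2.prodMk_space hc3))
    refine h1.congr_of_eventuallyEq ?_
    have h2 : ∀ᶠ y' : Circle × (Sph ℂ × Sph P.V) in 𝓝 y, y'.2.2 ≠ nor :=
      (continuous_snd.comp continuous_snd).continuousAt.eventually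
        (isOpen_ne.mem_nhds hw)
    filter_upwards [h2] with y' hy'
    simp only [Function.comp_apply, exp_lift]
    rw [Par.G, if_neg hy']

/-- the global map is `C^∞` off the sphere `{1} × {sou} × Sph P.V` -/
theorem fM_smoothAt_of
    (hF : ∀ (θ : ℝ) (z : ℂ) (v : P.V), (Circle.exp θ ≠ 1 ∨ z ≠ 0) →
      ContDiffAt ℝ ∞ (fun q : ℝ × ℂ × P.V => P.F (Circle.exp q.1) q.2.1 q.2.2) (θ, z, v))
    (hW : ∀ (θ : ℝ) (z : ℂ), (Circle.exp θ ≠ 1 ∨ z ≠ 0) →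
      ContDiffAt ℝ ∞ (fun q : ℝ × ℂ => P.W (Circle.exp q.1) q.2) (θ, z))
    (y : Circle × (Sph ℂ × Sph P.V)) (hy : y.1 ≠ 1 ∨ y.2.1 ≠ sou) :
    ContMDiffAt ((𝓡 1).prod ((𝓡 2).prod (𝓡 (2 * P.p))))
      ((𝓡 1).prod ((𝓡 2).prod (𝓡 (2 * P.p)))) ∞ P.fM y := by
  classical
  have hfst : ContMDiffAt ((𝓡 1).prod ((𝓡 2).prod (𝓡 (2 * P.p)))) (𝓡 1) ∞
      (fun y : Circle × (Sph ℂ × Sph P.V) => P.ω * y.1) y :=
    (contMDiff_mul_left (I := 𝓡 1) (n := ∞) (a := P.ω)).contMDiffAt.comp y contMDiffAt_fst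
  refine hfst.prodMk ?_
  by_cases hx : -(15 / 17) < ht y.2.1
  · have h1 : ContMDiffAt ((𝓡 1).prod ((𝓡 2).prod (𝓡 (2 * P.p)))) ((𝓡 2).prod (𝓡 (2 * P.p))) ∞
        (fun _ : Circle × (Sph ℂ × Sph P.V) => ((nor, sou) : Sph ℂ × Sph P.V)) y :=
      contMDiffAt_const
    refine h1.congr_of_eventuallyEq ?_
    have h2 : ∀ᶠ y' : Circle × (Sph ℂ × Sph P.V) in 𝓝 y, -(15 / 17) < ht y'.2.1 :=
      (continuous_ht_bd270.comp (continuous_fst.comp continuous_snd)).continuousAt.eventually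
        (lt_mem_nhds hx)
    filter_upwards [h2] with y' hy'
    rw [Par.fib]
    split_ifs with h3
    · have h4 : y'.2.1 ≠ nor := by
        intro h; rw [h] at h3; simp only [nor, ht_mk] at h3; norm_num at h3
      have h5 := norm_st_sq h4
      have h6 : 1 / 4 ≤ ‖st y'.2.1‖ := by
        have h7 : (1 / 4 : ℝ) ^ 2 ≤ ‖st y'.2.1‖ ^ 2 := by
          rw [h5, le_div_iff₀ (by linarith only [h3])]
          linarith only [hy']
        exact le_of_sq_le_sq h7 (norm_nonneg _)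
      have h8 : P.G y'.1 y'.2.1 y'.2.2 = P.W y'.1 (st y'.2.1) := by
        rw [Par.G]
        split_ifs with h9
        · rfl
        · refine P.F_eq_W _ _ _ ?_ ?_
          · have h7 := P.A_le y'.1
            have h8 : 0 ≤ P.A y'.1 := expNegInvGlue.nonneg _
            nlinarith only [h6, h7, h8]
          · have := sq_nonneg ‖st y'.2.2‖
            nlinarith only [h6]
      obtain ⟨h10, h11⟩ := P.W_far y'.1 h6
      rw [h8, h11, E2_of_two_le h10, ist_zero]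
    · rfl
  · have hx' : ht y.2.1 < -(3 / 4) := by
      have := not_lt.1 hx
      linarith
    have hne : y.2.1 ≠ nor := by
      intro h; rw [h] at hx'; simp only [nor, ht_mk] at hx'; norm_num at hx'
    have hG := contMDiffAt_G' P hF hW y hne hy
    have h1 : ContMDiffAt ((𝓡 1).prod ((𝓡 2).prod (𝓡 (2 * P.p)))) (𝓡 2) ∞
        (fun y : Circle × (Sph ℂ × Sph P.V) => E2 (P.G y.1 y.2.1 y.2.2 0)) y :=
      (contMDiff_E2 (m := ⊤)).contMDiffAt.comp y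
        ((P.contDiff_zeroCoord (n := ∞)).contMDiff.contMDiffAt.comp y hG)
    have h2 : ContMDiffAt ((𝓡 1).prod ((𝓡 2).prod (𝓡 (2 * P.p)))) (𝓡 (2 * P.p)) ∞
        (fun y : Circle × (Sph ℂ × Sph P.V) => (ist (P.hat (P.G y.1 y.2.1 y.2.2)) : Sph P.V)) y :=
      (contMDiff_ist (V := P.V) (n := 2 * P.p) (m := ⊤)).contMDiffAt.comp y
        ((P.contDiff_hat (n := ∞)).contMDiff.contMDiffAt.comp y hG)
    refine (h1.prodMk h2).congr_of_eventuallyEq ?_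
    have h3 : ∀ᶠ y' : Circle × (Sph ℂ × Sph P.V) in 𝓝 y, ht y'.2.1 < -(3 / 4) :=
      (continuous_ht_bd270.comp (continuous_fst.comp continuous_snd)).continuousAt.eventually
        (gt_mem_nhds hx')
    filter_upwards [h3] with y' hy'
    rw [Par.fib, if_pos hy']

end H865

end Vale.Agent.P103
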