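import Vale.Agent.P103.H865.Sing2
import Vale.Agent.P103.H584.Loc

/-!
# P103: the size of the displacement at the singular sphere, and the main theorem
-/

set_option autoImplicit false

namespace Vale.Agent.P103

open Filter Topology
open scoped Manifold ContDiff

namespace H865

variable (P : Par)

theorem st_tendsto : Tendsto (st : Sph ℂ → ℂ) (𝓝 sou) (𝓝 0) := by
  have h := (contMDiffAt_st' (n := 2) (Hm.sou_ne_nor ℂ)).continuousAt
  rwa [ContinuousAt, st_sou] at h

theorem ht_near : ∀ᶠ x : Sph ℂ in 𝓝 sou, ht x < -(3 / 4) := by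
  refine continuous_ht.continuousAt.eventually (gt_mem_nhds ?_)
  rw [sou_ht]
  norm_num

theorem disp_zero (w : Sph P.V) :
    Tendsto (fun x : Sph ℂ => dist (P.fM (1, (x, w))) (P.fM (1, (sou, w))) / dist x sou)
      (𝓝[≠] sou) (𝓝 0) := by
  refine tendsto_order.2 ⟨fun b hb => Eventually.of_forall fun x =>
    hb.trans_le (div_nonneg dist_nonneg dist_nonneg), fun b hb => ?_⟩
  have h1 : ∀ᶠ z : ℂ in 𝓝 0, ‖P.W 1 z‖ ≤ b / 4 * ‖z‖ := by
    have h := (W1_hasFDerivAt P).isLittleO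
    simp only [P.W_zero, sub_zero, zero_apply] at h
    exact h.bound (by positivity)
  have h2 := st_tendsto.eventually h1
  have h3 := st_tendsto.eventually (W_small_near P)
  have h4 : ∀ᶠ x : Sph ℂ in 𝓝 sou, x ≠ sou →
      dist (P.fM (1, (x, w))) (P.fM (1, (sou, w))) / dist x sou < b := by
    filter_upwards [h2, h3, ht_near] with x hx2 hx3 hx4 hne
    have h5 := (displacement P hx4 hx3 w).2
    have h6 := st_le_dist (x := x) (by linarith only [hx4])
    have h7 : 0 < dist x sou := dist_pos.2 hne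
    rw [div_lt_iff₀ h7]
    nlinarith only [h5, h6, h7, hx2, hb]
  exact eventually_nhdsWithin_iff.2 h4

theorem disp_super (w : Sph P.V) {ε : ℝ} (hε : 0 < ε) :
    Tendsto (fun x : Sph ℂ => dist (P.fM (1, (x, w))) (P.fM (1, (sou, w))) / dist x sou ^ (1 + ε))
      (𝓝[≠] sou) atTop := by
  refine tendsto_atTop.2 fun b => ?_
  obtain ⟨δ, hδ, hW⟩ := W_super P hε (2 * |b| * 2 ^ (1 + ε))
  have h2 : ∀ᶠ x : Sph ℂ in 𝓝 sou, ‖st x‖ < δ := by
    have h := (continuous_norm.tendsto (0 : ℂ)).comp st_tendsto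
    rw [norm_zero] at h
    exact h.eventually (gt_mem_nhds hδ)
  have h3 := st_tendsto.eventually (W_small_near P)
  have h4 : ∀ᶠ x : Sph ℂ in 𝓝 sou, x ≠ sou →
      b ≤ dist (P.fM (1, (x, w))) (P.fM (1, (sou, w))) / dist x sou ^ (1 + ε) := by
    filter_upwards [h2, h3, ht_near] with x hx2 hx3 hx4 hne
    have h5 := (displacement P hx4 hx3 w).1
    have h6 := dist_le_st (x := x) (by linarith only [hx4])
    have h7 : 0 < dist x sou := dist_pos.2 hne
    have h8 : 0 < ‖st x‖ := by linarith only [h6, h7]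
    have h9 := hW (st x) h8 hx2
    have h10 : dist x sou ^ (1 + ε) ≤ 2 ^ (1 + ε) * ‖st x‖ ^ (1 + ε) := by
      rw [← Real.mul_rpow (by norm_num) (norm_nonneg _)]
      exact Real.rpow_le_rpow h7.le h6 (by linarith only [hε])
    rw [le_div_iff₀ (Real.rpow_pos_of_pos h7 _)]
    have h11 : b * dist x sou ^ (1 + ε) ≤ |b| * (2 ^ (1 + ε) * ‖st x‖ ^ (1 + ε)) :=
      (mul_le_mul_of_nonneg_right (le_abs_self b) (Real.rpow_nonneg h7.le _)).trans
        (mul_le_mul_of_nonneg_left h10 (abs_nonneg b))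
    have h12 : 2 * |b| * 2 ^ (1 + ε) * ‖st x‖ ^ (1 + ε) =
      2 * (|b| * (2 ^ (1 + ε) * ‖st x‖ ^ (1 + ε))) := by ring
    rw [h12] at h9
    linarith only [h5, h9, h11]
  exact eventually_nhdsWithin_iff.2 h4

/-- the rotation number is irrational -/
theorem omega_pow_ne {k : ℕ} (hk : 1 ≤ k) : P.ω ^ k ≠ 1 := by
  intro h
  have h1 := P.nt.low k hk
  rw [h] at h1
  simp only [Circle.coe_one, sub_self, norm_zero, mul_zero] at h1
  linarith only [h1, P.nt.h_pos]

theorem smooth_off (y : Circle × (Sph ℂ × Sph P.V)) (hy : y.1 ≠ 1 ∨ y.2.1 ≠ sou) :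
    ContMDiffAt ((𝓡 1).prod ((𝓡 2).prod (𝓡 (2 * P.p))))
      ((𝓡 1).prod ((𝓡 2).prod (𝓡 (2 * P.p)))) ∞ P.fM y :=
  fM_smoothAt_of P (fun θ z v h => P.F_smoothAt θ z v h) (fun θ z h => P.W_smoothAt θ z h) y hy

end H865

end Vale.Agent.P103
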