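import Vale.Agent.P103.Bdl.B2

/-!
# P103: a lower bound for the wrapping map over `ζ = 1`

`‖W(1,z)‖` is not `O(|z|^(1+ε))` for any `ε > 0`.
-/

set_option autoImplicit false

namespace Vale.Agent.P103

open Filter Topology

namespace H865

variable (P : Par)

/-- a quantitative lower bound for the disc family -/
theorem e_lower : ∃ C : ℝ, 0 < C ∧ ∀ (ζ : Circle) (a : ℝ) (u : ℂ), 0 < a → a ≤ 1 → ‖u‖ = 1 →
    a * Real.exp (-(C * Real.sqrt (Real.log (2 / a)))) ≤ ‖P.e ζ a u‖ := by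
  have hH := P.H_ge
  refine ⟨2 * (P.H + 2), by linarith, fun ζ a u ha ha1 hu => ?_⟩
  obtain ⟨v, hv0, hv1, hva, hvlog⟩ := P.rc_exists_v ha
  obtain ⟨s, hs1, hs2, hs3, hs4⟩ := P.stop ζ hv0 hv1
  have hr := P.r_stop ζ hv0 hv1 hva s hs1 hs4
  have hlog := hvlog ha1
  obtain ⟨L, hL⟩ : ∃ L, L = Real.log (2 / a) := ⟨_, rfl⟩
  rw [← hL] at hlog ⊢
  have hL0 : Real.log 2 ≤ L := by
    rw [hL]
    refine Real.log_le_log (by norm_num) ?_
    rw [le_div_iff₀ ha]
    linarith only [ha1]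
  have hlog2 : 0.69 < Real.log 2 := by
    have := Real.log_two_gt_d9
    linarith only [this]
  have hLp : 0 < L := by linarith only [hL0, hlog2]
  have hPs : P.Pr ζ a (s + 1) = 0 := P.Pr_eq_zero hr (Nat.lt_succ_self s)
  have hsum := P.sum_Pr_kk ζ a (s + 1)
  rw [hPs, sub_zero] at hsum
  have hex : ∃ t ∈ Finset.range (s + 1), 1 / ((s : ℝ) + 1) ≤ P.Pr ζ a t * kk (P.r ζ a t) := by
    by_contra hc
    push Not at hc
    have : ∑ t ∈ Finset.range (s + 1), P.Pr ζ a t * kk (P.r ζ a t) <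
        ∑ _t ∈ Finset.range (s + 1), 1 / ((s : ℝ) + 1) :=
      Finset.sum_lt_sum_of_nonempty ⟨0, by simp⟩ hc
    rw [hsum, Finset.sum_const, Finset.card_range, nsmul_eq_mul] at this
    push_cast at this
    rw [mul_one_div_cancel (by positivity)] at this
    exact lt_irrefl _ this
  obtain ⟨t, ht, htl⟩ := hex
  have hts : t ≤ s := Nat.lt_succ_iff.1 (Finset.mem_range.1 ht)
  have hk := kk_le_S (P.r ζ a t)
  have hP := P.Pr_nonneg ζ a t
  have g1 : 1 / (4 * ((s : ℝ) + 1)) ≤ P.Pr ζ a t * S (P.r ζ a t) := by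
    have g0 : 1 / ((s : ℝ) + 1) ≤ 4 * (P.Pr ζ a t * S (P.r ζ a t)) := by
      calc 1 / ((s : ℝ) + 1) ≤ P.Pr ζ a t * kk (P.r ζ a t) := htl
        _ ≤ P.Pr ζ a t * (4 * S (P.r ζ a t)) := mul_le_mul_of_nonneg_left hk hP
        _ = 4 * (P.Pr ζ a t * S (P.r ζ a t)) := by ring
    have : 1 / (4 * ((s : ℝ) + 1)) = (1 / ((s : ℝ) + 1)) / 4 := by field_simp
    rw [this]; linarith only [g0]
  have hsp : (s : ℝ) + 1 ≤ 2 ^ s := by
    have := @Nat.lt_two_pow_self s
    exact_mod_cast this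
  have h2t : (2 : ℝ) ^ t ≤ 2 ^ s := pow_le_pow_right₀ (by norm_num) hts
  have hden : 4 * ((s : ℝ) + 1) * 2 ^ t ≤ 4 ^ (s + 1) := by
    have : (4 : ℝ) ^ (s + 1) = 4 * (2 ^ s * 2 ^ s) := by rw [← mul_pow, pow_succ]; norm_num; ring
    rw [this, mul_assoc]
    exact mul_le_mul_of_nonneg_left (mul_le_mul hsp h2t (by positivity) (by positivity))
      (by norm_num)
  -- the stopping time is `O(√L)`
  have hsH : (s : ℝ) ≤ P.H * Real.sqrt L := by
    have h2 : 1 ≤ 2 * Real.sqrt v * Real.sqrt L := by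
      have h3 : 1 / 4 ≤ v * L := by
        have h4 : v * v⁻¹ = 1 := mul_inv_cancel₀ hv0.ne'
        nlinarith only [h4, hlog, hv0]
      have h5 : Real.sqrt v * Real.sqrt L = Real.sqrt (v * L) := (Real.sqrt_mul hv0.le L).symm
      have h6 : 1 / 2 ≤ Real.sqrt (v * L) := by
        refine Real.le_sqrt_of_sq_le ?_
        norm_num
        linarith only [h3]
      rw [mul_assoc, h5]
      linarith only [h6]
    calc (s : ℝ) = (s : ℝ) * 1 := (mul_one _).symm
      _ ≤ (s : ℝ) * (2 * Real.sqrt v * Real.sqrt L) := mul_le_mul_of_nonneg_left h2 (by positivity)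
      _ = ((s : ℝ) * (2 * Real.sqrt v)) * Real.sqrt L := by ring
      _ ≤ P.H * Real.sqrt L := mul_le_mul_of_nonneg_right hs3 (Real.sqrt_nonneg _)
  have hL1 : 1 ≤ 2 * Real.sqrt L := by
    have : 1 / 2 ≤ Real.sqrt L := Real.le_sqrt_of_sq_le (by norm_num; linarith only [hL0, hlog2])
    linarith only [this]
  have h4e : (4 : ℝ) ^ (s + 1) ≤ Real.exp (2 * (P.H + 2) * Real.sqrt L) := by
    have e1 : (4 : ℝ) ≤ Real.exp 2 := by
      have := Real.add_one_le_exp (1 : ℝ)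
      have e2 : Real.exp 2 = Real.exp 1 * Real.exp 1 := by rw [← Real.exp_add]; norm_num
      rw [e2]; nlinarith only [this]
    calc (4 : ℝ) ^ (s + 1) ≤ Real.exp 2 ^ (s + 1) := pow_le_pow_left₀ (by norm_num) e1 _
      _ = Real.exp ((s + 1 : ℕ) * 2) := (Real.exp_nat_mul 2 (s + 1)).symm
      _ ≤ _ := by
        apply Real.exp_le_exp.2
        push_cast
        nlinarith only [hsH, hL1]
  have hcoef : a * Real.exp (-(2 * (P.H + 2) * Real.sqrt L)) ≤ P.coef ζ a t := by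
    unfold Par.coef
    rw [le_div_iff₀ (by positivity)]
    rw [Real.exp_neg]
    have g2 : (Real.exp (2 * (P.H + 2) * Real.sqrt L))⁻¹ * 2 ^ t ≤ 1 / (4 * ((s : ℝ) + 1)) := by
      rw [inv_mul_le_iff₀ (Real.exp_pos _), mul_one_div, le_div_iff₀ (by positivity)]
      linarith only [h4e, hden]
    calc a * (Real.exp (2 * (P.H + 2) * Real.sqrt L))⁻¹ * 2 ^ t
        = ((Real.exp (2 * (P.H + 2) * Real.sqrt L))⁻¹ * 2 ^ t) * a := by ring
      _ ≤ (P.Pr ζ a t * S (P.r ζ a t)) * a :=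
        mul_le_mul_of_nonneg_right (g2.trans g1) ha.le
  have hpos : 0 < P.coef ζ a t := lt_of_lt_of_le (by positivity) hcoef
  have h := P.cb_e_alive ha hu hpos.ne'
  have h2 : ‖P.e ζ a u (-(t : ZMod P.p))‖ ≤ ‖P.e ζ a u‖ := PiLp.norm_apply_le _ _
  rw [h, norm_mul, norm_pow, hu, one_pow, mul_one, Complex.norm_real, Real.norm_eq_abs,
    abs_of_pos hpos] at h2
  exact hcoef.trans h2

theorem Gam_one (a : ℝ) : P.Gam 1 a = P.Λ * beta a * a := by
  unfold Par.Gam mx
  rw [Hm.nu_one, zero_div, sub_zero, Real.smoothTransition.one_of_one_le (by norm_num)]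
  ring

/-- `‖W(1,z)‖` is much larger than `‖z‖^(1+ε)` -/
theorem W_super {ε : ℝ} (hε : 0 < ε) (M : ℝ) : ∃ δ : ℝ, 0 < δ ∧ ∀ z : ℂ, 0 < ‖z‖ → ‖z‖ < δ →
    M * ‖z‖ ^ (1 + ε) < ‖P.W 1 z‖ := by
  obtain ⟨C, hC0, hC⟩ := e_lower P
  have hΛ : 64 ≤ P.Λ := P.Λ_ge_64
  obtain ⟨c, hc⟩ : ∃ c : ℝ, c = 7 * ε / 8 + 2 * C ^ 2 / ε - 1 - Real.log (ε / 8) := ⟨_, rfl⟩
  refine ⟨min (1 / P.Λ) (Real.exp (-(2 / ε * (c + Real.log (|M| + 1))))),
    lt_min (by positivity) (Real.exp_pos _), fun z hz0 hz => ?_⟩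
  obtain ⟨a, ha⟩ : ∃ a : ℝ, a = ‖z‖ := ⟨_, rfl⟩
  rw [← ha] at hz0 hz ⊢
  have hzΛ : a < 1 / P.Λ := hz.trans_le (min_le_left _ _)
  have hzexp : a < Real.exp (-(2 / ε * (c + Real.log (|M| + 1)))) := hz.trans_le (min_le_right _ _)
  have hΛa : P.Λ * a < 1 := by
    rw [lt_div_iff₀ (by linarith)] at hzΛ
    linarith only [hzΛ]
  have ha1 : a < 1 := by nlinarith only [hΛa, hΛ, hz0]
  obtain ⟨L, hL⟩ : ∃ L : ℝ, L = -Real.log a := ⟨_, rfl⟩
  have hLpos : 0 < L := by rw [hL]; linarith only [Real.log_neg hz0 ha1]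
  have haL : a = Real.exp (-L) := by rw [hL, neg_neg, Real.exp_log hz0]
  have hMexp : 2 / ε * (c + Real.log (|M| + 1)) < L := by
    rw [haL, Real.exp_lt_exp] at hzexp
    linarith only [hzexp]
  -- the coefficient `β`
  have hβ : 1 / (2 * (2 + L)) ≤ beta a := by
    unfold beta
    apply one_div_le_one_div_of_le
    · have : 0 ≤ Real.log (1 + 1 / a) := Real.log_nonneg (by
        have : 0 < 1 / a := by positivity
        linarith only [this])
      linarith only [this]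
    · have h1 : Real.log (1 + 1 / a) ≤ 1 + L := by
        have h2 : 1 + 1 / a ≤ Real.exp 1 * Real.exp L := by
          have e1 : (2 : ℝ) ≤ Real.exp 1 := by
            have := Real.add_one_le_exp (1 : ℝ); linarith only [this]
          have e2 : 1 / a = Real.exp L := by rw [haL, Real.exp_neg, one_div, inv_inv]
          have e3 : 1 ≤ Real.exp L := Real.one_le_exp hLpos.le
          rw [e2]
          nlinarith only [e1, e3]
        rw [← Real.exp_add] at h2
        rw [Real.log_le_iff_le_exp (by positivity)]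
        exact h2
      linarith only [h1]
  have hβ0 : 0 < beta a := lt_of_lt_of_le (by positivity) hβ
  have hβ1 : beta a ≤ 1 / 2 := beta_le_half hz0.le
  obtain ⟨g, hg⟩ : ∃ g : ℝ, g = P.Λ * beta a * a := ⟨_, rfl⟩
  have hg0 : 0 < g := by rw [hg]; positivity
  have hg1 : g ≤ 1 := by
    rw [hg]
    nlinarith only [hΛa, hβ1, hβ0, hz0, hΛ, mul_pos (mul_pos (by linarith : 0 < P.Λ) hz0) hβ0]
  have hgβ : 1 / (2 * (2 + L)) * a ≤ g := by
    rw [hg]
    have h1 : beta a ≤ P.Λ * beta a := by nlinarith only [hβ0, hΛ]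
    exact mul_le_mul_of_nonneg_right (hβ.trans h1) hz0.le
  -- the logarithm of `2(2+L)`
  have hlog : Real.log (2 * (2 + L)) ≤ ε / 2 + ε / 4 * L - 1 - Real.log (ε / 8) := by
    have h1 : Real.log (ε / 8 * (2 * (2 + L))) ≤ ε / 8 * (2 * (2 + L)) - 1 :=
      Real.log_le_sub_one_of_pos (by positivity)
    rw [Real.log_mul (by positivity) (by positivity)] at h1
    linarith only [h1]
  have hginv : 1 / (2 * (2 + L)) * a = Real.exp (-(Real.log (2 * (2 + L)) + L)) := by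
    rw [neg_add, Real.exp_add, ← haL, Real.exp_neg, Real.exp_log (by positivity), one_div]
  have hlogg : Real.log (2 / g) ≤ 2 * L + 3 := by
    have h1 : 2 / g ≤ Real.exp (2 * L + 3) := by
      rw [div_le_iff₀ hg0]
      have h2 : Real.exp (2 * L + 3) * (1 / (2 * (2 + L)) * a) ≤ Real.exp (2 * L + 3) * g :=
        mul_le_mul_of_nonneg_left hgβ (Real.exp_pos _).le
      refine le_trans ?_ h2
      rw [hginv, ← Real.exp_add]
      have h3 : Real.log (2 * (2 + L)) ≤ L + 2 := by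
        have h4 : Real.log (1 / 2 * (2 * (2 + L))) ≤ 1 / 2 * (2 * (2 + L)) - 1 :=
          Real.log_le_sub_one_of_pos (by positivity)
        rw [Real.log_mul (by norm_num) (by positivity)] at h4
        have h5 : -1 ≤ Real.log (1 / 2 : ℝ) := by
          rw [one_div, Real.log_inv]
          have := Real.log_two_lt_d9
          linarith only [this]
        linarith only [h4, h5]
      have h6 : (2 : ℝ) ≤ Real.exp 1 := by
        have := Real.add_one_le_exp (1 : ℝ); linarith only [this]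
      exact h6.trans (Real.exp_le_exp.2 (by linarith only [h3]))
    rw [Real.log_le_iff_le_exp (by positivity)]
    exact h1
  have hlogg0 : 0 ≤ Real.log (2 / g) := Real.log_nonneg (by
    rw [le_div_iff₀ hg0]; linarith only [hg1])
  have hsq : C * Real.sqrt (Real.log (2 / g)) ≤ ε / 8 * (2 * L + 3) + 2 * C ^ 2 / ε := by
    have h1 : Real.sqrt (Real.log (2 / g)) ^ 2 ≤ 2 * L + 3 := by
      rw [Real.sq_sqrt hlogg0]; exact hlogg
    obtain ⟨x, hx⟩ : ∃ x, x = Real.sqrt (Real.log (2 / g)) := ⟨_, rfl⟩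
    rw [← hx] at h1 ⊢
    have h2 : C * x ≤ ε / 8 * x ^ 2 + 2 * C ^ 2 / ε := by
      have h3 : 0 ≤ (ε * x - 4 * C) ^ 2 / (8 * ε) := by positivity
      have h4 : (ε * x - 4 * C) ^ 2 / (8 * ε) = ε / 8 * x ^ 2 + 2 * C ^ 2 / ε - C * x := by
        field_simp
        ring
      linarith only [h3, h4]
    have h5 : ε / 8 * x ^ 2 ≤ ε / 8 * (2 * L + 3) := mul_le_mul_of_nonneg_left h1 (by positivity)
    linarith only [h2, h5]
  have hu : ‖(z / ‖z‖) ^ 2‖ = 1 := by
    have hz : ‖z‖ ≠ 0 := by rw [← ha]; exact hz0.ne'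
    rw [norm_pow, norm_div, Complex.norm_real, norm_norm, div_self hz, one_pow]
  have hW : g * Real.exp (-(C * Real.sqrt (Real.log (2 / g)))) ≤ ‖P.W 1 z‖ := by
    have h1 := hC P.ω g ((z / ‖z‖) ^ 2) hg0 hg1 hu
    rw [Hm.W_one' P z, ← ha, Gam_one P, ← hg]
    rw [← ha] at h1
    exact h1
  refine lt_of_lt_of_le ?_ hW
  have hbig : Real.exp (-(c + ε / 2 * L)) * a ≤ g * Real.exp (-(C * Real.sqrt (Real.log (2 / g)))) := by
    have h1 : Real.exp (-(Real.log (2 * (2 + L)) + L)) ≤ g := by rw [← hginv]; exact hgβ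
    calc Real.exp (-(c + ε / 2 * L)) * a
        = Real.exp (-(c + ε / 2 * L) + -L) := by rw [Real.exp_add, ← haL]
      _ ≤ Real.exp (-(Real.log (2 * (2 + L)) + L) + -(C * Real.sqrt (Real.log (2 / g)))) := by
        apply Real.exp_le_exp.2
        rw [hc]
        linarith only [hsq, hlog]
      _ = Real.exp (-(Real.log (2 * (2 + L)) + L)) *
          Real.exp (-(C * Real.sqrt (Real.log (2 / g)))) := Real.exp_add _ _
      _ ≤ _ := mul_le_mul_of_nonneg_right h1 (Real.exp_pos _).le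
  refine lt_of_lt_of_le ?_ hbig
  have hpow : a ^ (1 + ε) = a * Real.exp (-(ε * L)) := by
    rw [Real.rpow_add hz0, Real.rpow_one]
    congr 1
    rw [Real.rpow_def_of_pos hz0, hL]
    congr 1
    ring
  rw [hpow]
  have hM1 : M < |M| + 1 := by linarith only [le_abs_self M]
  have hM0 : 0 < |M| + 1 := by positivity
  have h1 : (|M| + 1) * Real.exp (-(ε * L)) < Real.exp (-(c + ε / 2 * L)) := by
    have h0 : |M| + 1 = Real.exp (Real.log (|M| + 1)) := (Real.exp_log hM0).symm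
    rw [h0, ← Real.exp_add]
    apply Real.exp_lt_exp.2
    have h2 : ε / 2 * (2 / ε * (c + Real.log (|M| + 1))) < ε / 2 * L :=
      mul_lt_mul_of_pos_left hMexp (by positivity)
    have h3 : ε / 2 * (2 / ε * (c + Real.log (|M| + 1))) = c + Real.log (|M| + 1) := by
      field_simp
    linarith only [h2, h3]
  have h4 : M * Real.exp (-(ε * L)) < Real.exp (-(c + ε / 2 * L)) :=
    lt_of_lt_of_le ((mul_lt_mul_of_pos_right hM1 (Real.exp_pos _)).trans h1) le_rfl
  calc M * (a * Real.exp (-(ε * L))) = (M * Real.exp (-(ε * L))) * a := by ring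
    _ < Real.exp (-(c + ε / 2 * L)) * a := mul_lt_mul_of_pos_right h4 hz0

end H865

end Vale.Agent.P103
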