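import Vale.Agent.P103.H865.Defs
import Vale.Agent.P103.H865.Lim

/-!
# P103: the main theorem on the example with `p = 1639`
-/

set_option autoImplicit false

namespace Vale.Agent.P103.H865

open Real goldenRatio

open Rot in
/-- the parameters of the construction with `p = 1639` -/
noncomputable def P0 : Par where
  p := 1639
  ω := Circle.exp (2 * π * al)
  H := 123 * π
  h := 4 / (42 * 95)
  Λ := 64 * Real.exp (16 / (4 / (42 * 95)))
  K := 10 * (123 * π) * Real.log (64 * Real.exp (16 / (4 / (42 * 95))))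
  nt := ⟨by norm_num, by nlinarith only [pi_gt_three], by norm_num, by norm_num,
    H1_part, b_part, c_part⟩
  Λ_ge := le_rfl
  K_ge := le_rfl

end Vale.Agent.P103.H865

namespace Vale.Agent.P103.H865

open Filter Topology
open scoped Manifold ContDiff

theorem main : ∃ (V W : Type) (_ : NormedAddCommGroup V) (_ : InnerProductSpace ℝ V)
      (_ : NormedAddCommGroup W) (_ : InnerProductSpace ℝ W)
      (_ : Fact (Module.finrank ℝ V = 2 + 1)) (_ : Fact (Module.finrank ℝ W = 3278 + 1))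
      (f : Mfd V W → Mfd V W) (s : Sp V) (a : Circle),
      CompactConnected V W ∧ (∀ y, SmoothAt 3278 1 f y) ∧ Violates f ∧
      (∀ y, (f y).1 = a * y.1) ∧ (∀ k : ℕ, 1 ≤ k → a ^ k ≠ 1) ∧
      (∀ y, SmoothAt 3278 ∞ f y ↔ y ∉ Zs s) ∧ (∀ y, SmoothAt 3278 2 f y ↔ y ∉ Zs s) ∧
      ∀ w, IsSmall f s w 1 ∧ ∀ e : ℝ, 1 < e → IsLarge f s w e := by
  have h1 : ConnectedSpace Circle := connectedSpace_circle
  have h2 : ConnectedSpace (Sph ℂ) := connectedSpace_Sph ℂ (n := 2) (by norm_num) Fact.out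
  have h3 : ConnectedSpace (Sph P0.V) :=
    connectedSpace_Sph P0.V (n := 2 * P0.p) (by have := P0.nt.two_le; omega) Fact.out
  have h4 : CompactSpace (Circle × (Sph ℂ × Sph P0.V)) := inferInstance
  have h5 : ConnectedSpace (Circle × (Sph ℂ × Sph P0.V)) := inferInstance
  have f0 : Fact (Module.finrank ℝ (WithLp 2 (ℂ × ℝ)) = 2 + 1) := factS2
  have f1 : Fact (Module.finrank ℝ (WithLp 2 (P0.V × ℝ)) = 3278 + 1) := P0.factSm
  have hC1 : ∀ y : Mfd (WithLp 2 (ℂ × ℝ)) (WithLp 2 (P0.V × ℝ)), SmoothAt 3278 1 P0.fM y :=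
    fun y => P0.fM_contMDiff y
  have hs : ∀ y : Mfd (WithLp 2 (ℂ × ℝ)) (WithLp 2 (P0.V × ℝ)),
      y ∉ Zs (sou : Sph ℂ) → SmoothAt 3278 ∞ P0.fM y :=
    fun y hy => H865.smooth_off P0 y (not_and_or.1 hy)
  have hn : ∀ y : Mfd (WithLp 2 (ℂ × ℝ)) (WithLp 2 (P0.V × ℝ)),
      y ∈ Zs (sou : Sph ℂ) → ¬ SmoothAt 3278 2 P0.fM y := by
    rintro ⟨ζ, x, w⟩ ⟨hζ, hx⟩
    obtain rfl : ζ = 1 := hζ
    obtain rfl : x = sou := hx
    exact H865.fM_not_C2 P0 w
  refine ⟨WithLp 2 (ℂ × ℝ), WithLp 2 (P0.V × ℝ), inferInstance,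
    inferInstance, inferInstance, inferInstance, f0, f1, P0.fM,
    (sou : Sph ℂ), P0.ω, ⟨h4, h5⟩, hC1,
    ⟨P0.fM_entropy, P0.fM_continuous, P0.hasEigenvalue_two, P0.two_le_rho⟩, fun _ => rfl,
    fun k hk => H865.omega_pow_ne P0 hk, fun y => ⟨fun h hy => ?_, hs y⟩,
    fun y => ⟨fun h hy => hn y hy h, fun h => ?_⟩, fun w => ⟨?_, fun e he => ?_⟩⟩
  · exact hn y hy (ContMDiffAt.of_le h two_le_infty)
  · exact ContMDiffAt.of_le (hs y h) two_le_infty
  · unfold IsSmall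
    simp only [Real.rpow_one]
    exact H865.disp_zero P0 w
  · have h6 := H865.disp_super P0 w (ε := e - 1) (by linarith)
    rw [add_sub_cancel] at h6
    exact h6

end Vale.Agent.P103.H865
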