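import Vale.Agent.P103.H865.Glob
import Vale.Agent.P103.H865.Low

/-!
# P103: the behaviour of the global map at the singular sphere
-/

set_option autoImplicit false

namespace Vale.Agent.P103

open Filter Topology
open scoped Manifold ContDiff

namespace H865

section Sph

variable {V : Type} [NormedAddCommGroup V] [InnerProductSpace ℝ V]

theorem sph_dist_sq (x y : Sph V) :
    dist x y ^ 2 = ‖hp x - hp y‖ ^ 2 + (ht x - ht y) ^ 2 := by
  have h1 : dist x y = ‖(x : WithLp 2 (V × ℝ)) - (y : WithLp 2 (V × ℝ))‖ := by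
    rw [Subtype.dist_eq, dist_eq_norm]
  rw [h1, WithLp.prod_norm_eq_of_L2, Real.sq_sqrt (by positivity)]
  congr 1
  change ‖ht x - ht y‖ ^ 2 = _
  rw [Real.norm_eq_abs, sq_abs]

theorem dist_sou_sq (x : Sph V) : dist x sou ^ 2 = 2 * (1 + ht x) := by
  rw [sph_dist_sq]
  have h := hp_ht x
  simp only [sou, hp_mk, ht_mk, sub_zero]
  linarith only [h]

theorem ht_ge (x : Sph V) : -1 ≤ ht x := by
  have h := dist_sou_sq x
  have h2 := sq_nonneg (dist x sou)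
  linarith only [h, h2]

theorem st_le_dist {x : Sph V} (h : ht x ≤ 0) : ‖st x‖ ≤ dist x sou := by
  have hne : x ≠ nor := by
    rintro rfl
    simp only [nor, ht_mk] at h
    linarith only [h]
  have h1 := norm_st_sq hne
  have h2 := dist_sou_sq x
  have h3 := ht_ge x
  have h4 : ‖st x‖ ^ 2 ≤ dist x sou ^ 2 := by
    rw [h1, h2, div_le_iff₀ (by linarith only [h])]
    nlinarith only [h, h3]
  exact le_of_sq_le_sq h4 dist_nonneg

theorem dist_le_st {x : Sph V} (h : ht x ≤ 0) : dist x sou ≤ 2 * ‖st x‖ := by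
  have hne : x ≠ nor := by
    rintro rfl
    simp only [nor, ht_mk] at h
    linarith only [h]
  have h1 := norm_st_sq hne
  have h2 := dist_sou_sq x
  have h3 := ht_ge x
  have h4 : dist x sou ^ 2 ≤ (2 * ‖st x‖) ^ 2 := by
    rw [mul_pow, h1, h2, ← mul_div_assoc, le_div_iff₀ (by linarith only [h])]
    nlinarith only [h, h3]
  exact le_of_sq_le_sq h4 (by positivity)

theorem ht_ist (v : V) : ht (ist v : Sph V) = (‖v‖ ^ 2 - 1) / (1 + ‖v‖ ^ 2) := by
  unfold ist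
  rw [ht_mk]

theorem dist_ist_sq (v : V) : dist (ist v : Sph V) sou ^ 2 = 4 * ‖v‖ ^ 2 / (1 + ‖v‖ ^ 2) := by
  rw [dist_sou_sq, ht_ist]
  field_simp
  ring

theorem dist_ist_le (v : V) : dist (ist v : Sph V) sou ≤ 2 * ‖v‖ := by
  have h : dist (ist v : Sph V) sou ^ 2 ≤ (2 * ‖v‖) ^ 2 := by
    rw [dist_ist_sq, div_le_iff₀ (by positivity)]
    nlinarith only [sq_nonneg (‖v‖ ^ 2)]
  exact le_of_sq_le_sq h (by positivity)

theorem le_dist_ist {v : V} (hv : ‖v‖ ≤ 1) : ‖v‖ ≤ dist (ist v : Sph V) sou := by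
  have h : ‖v‖ ^ 2 ≤ dist (ist v : Sph V) sou ^ 2 := by
    rw [dist_ist_sq, le_div_iff₀ (by positivity)]
    have h1 : ‖v‖ ^ 2 ≤ 1 := pow_le_one₀ (norm_nonneg _) hv
    nlinarith only [h1, sq_nonneg ‖v‖]
  exact le_of_sq_le_sq h dist_nonneg

end Sph

variable (P : Par)

/-- the map `G` over `ζ = 1` -/
theorem G_one_all (x : Sph ℂ) (w : Sph P.V) : P.G 1 x w = P.W 1 (st x) := by
  unfold Par.G
  split_ifs
  · rfl
  · unfold Par.F
    rw [Hm.nu_one, mul_zero, mul_zero, Complex.ofReal_zero, zero_smul, zero_add]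

/-- the map over `ζ = 1` near the south pole -/
theorem fM_one {x : Sph ℂ} (h1 : ht x < -(3 / 4)) (h2 : ‖P.W 1 (st x)‖ ≤ 1) (w : Sph P.V) :
    P.fM (1, (x, w)) = (P.ω, (ist (P.W 1 (st x) 0), ist (P.hat (P.W 1 (st x))))) := by
  have h3 : ‖P.W 1 (st x) 0‖ ≤ 1 := (PiLp.norm_apply_le _ _).trans h2
  unfold Par.fM Par.fib
  simp only [mul_one]
  rw [if_pos h1, G_one_all, exc_E2_eq_ist h3]

theorem sou_ht (V : Type) [NormedAddCommGroup V] [InnerProductSpace ℝ V] :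
    ht (sou : Sph V) = -1 := by
  simp only [sou, ht_mk]

theorem st_sou (V : Type) [NormedAddCommGroup V] [InnerProductSpace ℝ V] :
    st (sou : Sph V) = 0 := by
  simp only [st, sou, ht_mk, sub_neg_eq_add, hp_mk, smul_zero]

theorem fM_sou (w : Sph P.V) : P.fM (1, (sou, w)) = (P.ω, (sou, sou)) := by
  have h0 : P.W 1 (st (sou : Sph ℂ)) = 0 := by rw [st_sou, P.W_zero]
  rw [fM_one P (by rw [sou_ht]; norm_num) (by rw [h0, norm_zero]; norm_num), h0]
  have h1 : P.hat (0 : P.V) = 0 := by simp [Par.hat]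
  rw [h1, PiLp.zero_apply, ist_zero, ist_zero]

theorem norm_W_le_max (v : P.V) : ‖v‖ ≤ 2 * max ‖v 0‖ ‖P.hat v‖ := by
  have h := P.cb_hat_norm_sq v
  have h1 : ‖v 0‖ ≤ max ‖v 0‖ ‖P.hat v‖ := le_max_left _ _
  have h2 : ‖P.hat v‖ ≤ max ‖v 0‖ ‖P.hat v‖ := le_max_right _ _
  have h3 : ‖v‖ ^ 2 ≤ (2 * max ‖v 0‖ ‖P.hat v‖) ^ 2 := by
    nlinarith only [h, h1, h2, norm_nonneg (v 0), norm_nonneg (P.hat v)]
  exact le_of_sq_le_sq h3 (by positivity)

theorem norm_hat_le (v : P.V) : ‖P.hat v‖ ≤ ‖v‖ := by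
  have h := P.cb_hat_norm_sq v
  have h3 : ‖P.hat v‖ ^ 2 ≤ ‖v‖ ^ 2 := by
    nlinarith only [h, sq_nonneg ‖v 0‖]
  exact le_of_sq_le_sq h3 (norm_nonneg _)

/-- the displacement over `ζ = 1` is comparable to `‖W(1, st x)‖` -/
theorem displacement {x : Sph ℂ} (h1 : ht x < -(3 / 4)) (h2 : ‖P.W 1 (st x)‖ ≤ 1) (w : Sph P.V) :
    ‖P.W 1 (st x)‖ ≤ 2 * dist (P.fM (1, (x, w))) (P.fM (1, (sou, w))) ∧
      dist (P.fM (1, (x, w))) (P.fM (1, (sou, w))) ≤ 2 * ‖P.W 1 (st x)‖ := by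
  rw [fM_one P h1 h2, fM_sou]
  obtain ⟨v, hv⟩ : ∃ v, v = P.W 1 (st x) := ⟨_, rfl⟩
  rw [← hv] at h2 ⊢
  have hd : dist (P.ω, ((ist (v 0) : Sph ℂ), (ist (P.hat v) : Sph P.V)))
      (P.ω, ((sou : Sph ℂ), (sou : Sph P.V))) =
      max (dist (ist (v 0) : Sph ℂ) sou) (dist (ist (P.hat v) : Sph P.V) sou) := by
    rw [Prod.dist_eq, Prod.dist_eq]
    simp only [dist_self]
    exact max_eq_right (le_trans dist_nonneg (le_max_left _ _))
  rw [hd]
  have h3 : ‖v 0‖ ≤ ‖v‖ := PiLp.norm_apply_le _ _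
  have h4 := norm_hat_le P v
  constructor
  · refine (norm_W_le_max P v).trans ?_
    have h5 := le_dist_ist (h3.trans h2)
    have h6 := le_dist_ist (h4.trans h2)
    have h7 := max_le_max h5 h6
    linarith only [h7]
  · refine max_le ((dist_ist_le _).trans ?_) ((dist_ist_le _).trans ?_)
    · linarith only [h3]
    · linarith only [h4]

end H865

end Vale.Agent.P103
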