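import Vale.Agent.P103.H865.Sing

/-!
# P103: the global map is not `C²` (not even `C^(1+ε)`) at the points of the singular sphere
-/

set_option autoImplicit false

namespace Vale.Agent.P103

open Filter Topology
open scoped Manifold ContDiff

namespace H865

section Taylor

variable {E F : Type} [NormedAddCommGroup E] [NormedSpace ℝ E] [NormedAddCommGroup F]
  [NormedSpace ℝ F]

/-- a `C²` map with `g 0 = 0`, `g' 0 = 0` is `O(‖z‖²)` -/
theorem taylor_two {g : E → F} (hg : ContDiffAt ℝ 2 g 0) (h0 : g 0 = 0)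
    (h1 : fderiv ℝ g 0 = 0) : ∃ (K δ : ℝ), 0 < δ ∧ ∀ z, ‖z‖ < δ → ‖g z‖ ≤ K * ‖z‖ ^ 2 := by
  have hd : ContDiffAt ℝ 1 (fderiv ℝ g) 0 := hg.fderiv_right (m := 1) (by norm_num)
  have h2 : DifferentiableAt ℝ (fderiv ℝ g) 0 := hd.differentiableAt one_ne_zero
  have h3 := h2.hasFDerivAt.isBigO_sub
  rw [h1] at h3
  simp only [sub_zero] at h3
  obtain ⟨K, hK⟩ := h3.bound
  have h4 : ∀ᶠ z in 𝓝 (0 : E), DifferentiableAt ℝ g z := by
    have h5 := hg.eventually (by simp)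
    filter_upwards [h5] with z hz
    exact hz.differentiableAt (by norm_num)
  obtain ⟨δ, hδ, hb⟩ := Metric.eventually_nhds_iff_ball.1 (hK.and h4)
  refine ⟨|K|, δ, hδ, fun z hz => ?_⟩
  have h6 := Convex.norm_image_sub_le_of_norm_fderiv_le (𝕜 := ℝ) (f := g) (C := |K| * ‖z‖)
    (s := Metric.closedBall (0 : E) ‖z‖) (x := 0) (y := z)
    (fun w hw => (hb w (by
      rw [mem_closedBall_zero_iff] at hw
      rw [mem_ball_zero_iff]; exact hw.trans_lt hz)).2) ?_ (convex_closedBall _ _) (by simp) (by simp)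
  · rw [h0, sub_zero, sub_zero] at h6
    calc ‖g z‖ ≤ |K| * ‖z‖ * ‖z‖ := h6
      _ = |K| * ‖z‖ ^ 2 := by ring
  · intro w hw
    rw [mem_closedBall_zero_iff] at hw
    have h7 := (hb w (by rw [mem_ball_zero_iff]; exact hw.trans_lt hz)).1
    refine h7.trans ?_
    calc K * ‖w‖ ≤ |K| * ‖w‖ := mul_le_mul_of_nonneg_right (le_abs_self K) (norm_nonneg _)
      _ ≤ |K| * ‖z‖ := mul_le_mul_of_nonneg_left hw (abs_nonneg _)

end Taylor

theorem two_le_infty : (2 : WithTop ℕ∞) ≤ ∞ :=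
  WithTop.coe_le_coe.2 (le_top : (2 : ℕ∞) ≤ ⊤)

variable (P : Par)

theorem W1_hasFDerivAt : HasFDerivAt (fun z : ℂ => P.W 1 z) (0 : ℂ →L[ℝ] P.V) 0 := by
  have h1 : HasFDerivAt P.WR (0 : ℝ × ℂ →L[ℝ] P.V) ((0 : ℝ), (0 : ℂ)) := by
    have h := (P.WR_contDiff.differentiable one_ne_zero ((0 : ℝ), (0 : ℂ))).hasFDerivAt
    rwa [P.WR_aux.2 0] at h
  have h2 : HasFDerivAt (fun z : ℂ => ((0 : ℝ), z)) (ContinuousLinearMap.inr ℝ ℝ ℂ) 0 :=
    (ContinuousLinearMap.inr ℝ ℝ ℂ).hasFDerivAt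
  have h3 := h1.comp (0 : ℂ) h2
  rw [ContinuousLinearMap.zero_comp] at h3
  refine h3.congr_of_eventuallyEq (Eventually.of_forall fun z => ?_)
  change P.W 1 z = P.W (Circle.exp 0) z
  rw [Circle.exp_zero]

/-- `z ↦ W(1,z)` is not `C²` at `0` -/
theorem W1_not_contDiffAt : ¬ ContDiffAt ℝ 2 (fun z : ℂ => P.W 1 z) 0 := by
  intro h
  obtain ⟨K, δ, hδ, hK⟩ := taylor_two h (P.W_zero 1) (W1_hasFDerivAt P).fderiv
  obtain ⟨η, hη, hη2⟩ := W_super P one_pos K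
  obtain ⟨r, hr⟩ : ∃ r : ℝ, r = min δ η / 2 := ⟨_, rfl⟩
  have hm : 0 < min δ η := lt_min hδ hη
  have hr0 : 0 < r := by rw [hr]; positivity
  have hn : ‖(r : ℂ)‖ = r := by rw [Complex.norm_real, Real.norm_of_nonneg hr0.le]
  have hr1 : r < δ := by rw [hr]; linarith only [min_le_left δ η, hm]
  have hr2 : r < η := by rw [hr]; linarith only [min_le_right δ η, hm]
  have h1 := hK (r : ℂ) (by rw [hn]; exact hr1)
  have h2 := hη2 (r : ℂ) (by rw [hn]; exact hr0) (by rw [hn]; exact hr2)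
  have h3 : ‖(r : ℂ)‖ ^ ((1 : ℝ) + 1) = ‖(r : ℂ)‖ ^ 2 := by
    rw [← Real.rpow_natCast]; norm_num
  rw [h3] at h2
  linarith only [h1, h2]

/-- the coordinates near the singular sphere: `‖st x‖` small -/
theorem W_small_near : ∀ᶠ z : ℂ in 𝓝 0, ‖P.W 1 z‖ ≤ 1 := by
  have h : Tendsto (fun z : ℂ => ‖P.W 1 z‖) (𝓝 0) (𝓝 0) := by
    have h1 := (W1_hasFDerivAt P).continuousAt.norm
    have h2 : ‖P.W 1 (0 : ℂ)‖ = 0 := by rw [P.W_zero, norm_zero]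
    rw [ContinuousAt, h2] at h1
    exact h1
  exact (h.eventually (gt_mem_nhds one_pos)).mono fun z hz => hz.le

/-- the global map is not `C²` at the points of the sphere `{1} × {sou} × Sph P.V` -/
theorem fM_not_C2 (w : Sph P.V) :
    ¬ ContMDiffAt ((𝓡 1).prod ((𝓡 2).prod (𝓡 (2 * P.p))))
      ((𝓡 1).prod ((𝓡 2).prod (𝓡 (2 * P.p)))) 2 P.fM (1, (sou, w)) := by
  intro h
  apply W1_not_contDiffAt P
  -- the slice `z ↦ (1, ist z, w)`
  have hj : ContMDiffAt 𝓘(ℝ, ℂ) ((𝓡 1).prod ((𝓡 2).prod (𝓡 (2 * P.p)))) 2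
      (fun z : ℂ => ((1 : Circle), ((ist z : Sph ℂ), w))) 0 :=
    contMDiffAt_const.prodMk (((contMDiff_ist (V := ℂ) (n := 2) (m := 2)).contMDiffAt).prodMk
      contMDiffAt_const)
  have h0 : ((1 : Circle), ((ist (0 : ℂ) : Sph ℂ), w)) = (1, (sou, w)) := by rw [ist_zero]
  have h1 : ContMDiffAt 𝓘(ℝ, ℂ) ((𝓡 1).prod ((𝓡 2).prod (𝓡 (2 * P.p)))) 2
      (fun z : ℂ => P.fM (1, (ist z, w))) 0 := by
    refine ContMDiffAt.comp (g := P.fM) (0 : ℂ) ?_ hj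
    rw [h0]
    exact h
  have hv : P.fM (1, (ist (0 : ℂ), w)) = (P.ω, (sou, sou)) := by rw [ist_zero, fM_sou]
  have h2 : ContMDiffAt 𝓘(ℝ, ℂ) (𝓡 2) 2 (fun z : ℂ => (P.fM (1, (ist z, w))).2.1) 0 :=
    contMDiffAt_fst.comp (0 : ℂ) (contMDiffAt_snd.comp (0 : ℂ) h1)
  have h3 : ContMDiffAt 𝓘(ℝ, ℂ) (𝓡 (2 * P.p)) 2 (fun z : ℂ => (P.fM (1, (ist z, w))).2.2) 0 :=
    contMDiffAt_snd.comp (0 : ℂ) (contMDiffAt_snd.comp (0 : ℂ) h1)
  have h4 : ContMDiffAt 𝓘(ℝ, ℂ) 𝓘(ℝ, ℂ) 2 (fun z : ℂ => st (P.fM (1, (ist z, w))).2.1) 0 := by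
    refine ContMDiffAt.comp (g := (st : Sph ℂ → ℂ)) (0 : ℂ) ?_ h2
    rw [hv]
    exact (contMDiffAt_st' (Hm.sou_ne_nor ℂ)).of_le two_le_infty
  have h5 : ContMDiffAt 𝓘(ℝ, ℂ) 𝓘(ℝ, P.V) 2 (fun z : ℂ => st (P.fM (1, (ist z, w))).2.2) 0 := by
    refine ContMDiffAt.comp (g := (st : Sph P.V → P.V)) (0 : ℂ) ?_ h3
    rw [hv]
    exact (contMDiffAt_st' (Hm.sou_ne_nor P.V)).of_le two_le_infty
  have hev : ∀ᶠ z : ℂ in 𝓝 0, P.W 1 z =
      st (P.fM (1, (ist z, w))).2.2 + st (P.fM (1, (ist z, w))).2.1 • P.bas 0 := by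
    have h6 : ∀ᶠ z : ℂ in 𝓝 0, ht (ist z : Sph ℂ) < -(3 / 4) := by
      have hc : Continuous (fun z : ℂ => ht (ist z : Sph ℂ)) :=
        continuous_ht.comp exc_ist_continuous
      refine hc.continuousAt.eventually (gt_mem_nhds ?_)
      change ht (ist (0 : ℂ) : Sph ℂ) < _
      rw [ist_zero, sou_ht]
      norm_num
    filter_upwards [h6, W_small_near P] with z hz1 hz2
    have hz3 : st (ist z : Sph ℂ) = z := exc_st_ist z
    have h7 := fM_one P (x := (ist z : Sph ℂ)) hz1 (by rw [hz3]; exact hz2) w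
    rw [hz3] at h7
    rw [h7]
    simp only [exc_st_ist]
    exact (P.cb_hat_add _).symm
  have h8 : ContDiffAt ℝ 2 (fun z : ℂ => st (P.fM (1, (ist z, w))).2.2 +
      st (P.fM (1, (ist z, w))).2.1 • P.bas 0) 0 := by
    refine h5.contDiffAt.add ?_
    have h9 := h4.contDiffAt
    exact h9.smul contDiffAt_const
  exact h8.congr_of_eventuallyEq hev

end H865

end Vale.Agent.P103
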